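import Vale.Agent.P281.H83.HK.Defs
import Vale.Agent.P281.H64.TS.Spec2

/-!
# P281, project T-HK (helper83): irreducible holomorphic symplectic fibres, statements of the blocks
(FROZEN)

`W` = top products of 2-forms; Hodge index theorem for `B(a, b) = ∫ a ∧ b ∧ ω^(d-2)` on `H²`; the
generator `s` of `H⁰(Ω²)` and its period in all the fibres; `η = (det s)^N`.
-/

open Set Filter Metric MeasureTheory Vale.Agent.P281 Vale.Agent.P281.H713 Vale.Agent.P272.K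
open Vale.Agent.P281.MF Vale.Agent.P281.ISO Vale.Agent.P281.ELL Vale.Agent.P281.H713.TZ
open Vale.Agent.P281.H64.Thin (IsThinSet)
open Vale.Agent.P281.H64.Gen (IsSmallSet)
open Vale.Agent.P281.H603.TE (sub fsub fW idx rep)
open scoped Topology ContDiff Manifold ComplexConjugate ComplexOrder ENNReal NNReal

noncomputable section

namespace Vale.Agent.P281.H83.HK

open Vale.Agent.P281.H64 (IsProperFibration)
open Vale.Agent.P281.H64.TK Vale.Agent.P281.H64.TK.TS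

/-! ### A. Algebra -/

/-- **W1**: `W` is multilinear (over `ℂ`) and symmetric. -/
def WLinStmt : Prop :=
  ∀ (d : ℕ) (a : Fin d → L2 d) (i : Fin d) (x y : L2 d) (c : ℂ) (τ : Equiv.Perm (Fin d)),
    W (Function.update a i (x + y)) = W (Function.update a i x) + W (Function.update a i y) ∧
    W (Function.update a i (c • x)) = c * W (Function.update a i x) ∧ W (a ∘ τ) = W a

/-- **W2**: the pull-back by a real linear map. -/
def WPullStmt : Prop :=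
  ∀ (d : ℕ) (L : Cm d →L[ℝ] Cm d) (a a' : Fin d → L2 d),
    (∀ i u v, a i u v = a' i (L u) (L v)) → W a = W a' * (L.det : ℂ)

/-- The matrix `H` of the (1,1)-part `(i/2) ∑ H_{jk} dz_j ∧ conj dz_k` of `a`. -/
def h11 {d : ℕ} (a : L2 d) : Matrix (Fin d) (Fin d) ℂ := (-(2 * Complex.I)) • c11 a

/-- **W3**: the value of `a ∧ b ∧ ω^(d-2)`. (`d = 2`, `w = 1`: `dz_1 dz_2 d̄z_1 d̄z_2 = 4 dV`.) -/
def WValStmt : Prop :=
  ∀ (d : ℕ) (a b : L2 d) (w : Matrix (Fin d) (Fin d) ℂ), 2 ≤ d → (∀ u v, a u v = -a v u) →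
    (∀ u v, b u v = -b v u) → w.PosDef →
    W3 a b (kf w) = ((d - 2).factorial : ℂ) * w.det *
      ((w⁻¹ * h11 a).trace * (w⁻¹ * h11 b).trace - (w⁻¹ * h11 a * (w⁻¹ * h11 b)).trace +
        2 * (w⁻¹ * c20 a * (w⁻¹).transpose * (c02 b).transpose).trace +
        2 * (w⁻¹ * c20 b * (w⁻¹).transpose * (c02 a).transpose).trace)

/-- **W4**: the volume form of a holomorphic 2-form. (`σ^n ∧ conj σ^n = (n!)² 2^d |det σ| dV`,
`d = 2n`.) -/
def WDetStmt : Prop :=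
  ∀ d : ℕ, ∃ κ : ℝ, 0 < κ ∧ ∀ s : Matrix (Fin d) (Fin d) ℂ, s.transpose = -s →
    W (fun i : Fin d => if 2 * i.val < d then tf s else cj (tf s)) = ((κ * ‖s.det‖ : ℝ) : ℂ)

/-! ### B. One manifold -/

/-- **I0**: the forms of the theory are smooth closed 2-forms (any `d`; helper624 / helper702 did
`d = 2`, top degree). -/
def FormsStmt : Prop :=
  ∀ (d : ℕ) (E Γ : Type) [TopologicalSpace E] [T2Space E] [Group Γ] [Subsingleton Γ]
    [MulAction Γ E] [ContinuousConstSMul Γ E] (S : Sheets d E Γ), 0 < d →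
    (∀ s, Hol2 S s → Cl2 S (ts s)) ∧
    (∀ w : Fin S.N → Cm d → Matrix (Fin d) (Fin d) ℂ, Kah S w → Cl2 S (kw w) ∧ Real2 S (kw w)) ∧
    ∀ a : Fin S.N → Cm d → L2 d, Cl2 S a → Cl2 S (cjs a)

/-- **I1**: Stokes. -/
def WStokesStmt : Prop :=
  ∀ (d : ℕ) (E Γ : Type) [TopologicalSpace E] [T2Space E] [Group Γ] [Subsingleton Γ]
    [MulAction Γ E] [ContinuousConstSMul Γ E] (S : Sheets d E Γ)
    (a : Fin d → Fin S.N → Cm d → L2 d) (j : Fin d) (β : Fin S.N → Cm d → L1 d),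
    (∀ i, i ≠ j → Cl2 S (a i)) → F1On S univ β →
    S.int (fun i z => W (Function.update (fun l => a l i z) j (d1 (β i) z))) = 0

/-- **I2**: change of variables. -/
def WInvStmt : Prop :=
  ∀ (d : ℕ) (E Γ : Type) [TopologicalSpace E] [T2Space E] [Group Γ] [Subsingleton Γ]
    [MulAction Γ E] [ContinuousConstSMul Γ E] (S : Sheets d E Γ)
    (E' Γ' : Type) [TopologicalSpace E'] [T2Space E'] [Group Γ'] [Subsingleton Γ']
    [MulAction Γ' E'] [ContinuousConstSMul Γ' E'] (S' : Sheets d E' Γ') (τ : E ≃ₜ E')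
    (a : Fin d → Fin S.N → Cm d → L2 d) (a' : Fin d → Fin S'.N → Cm d → L2 d), 0 < d →
    Dif S S' τ → (∀ l, Cl2 S (a l)) → (∀ l, Cl2 S' (a' l)) → (∀ l, Pull2 S S' τ (a l) (a' l)) →
    S.int (fun i z => W fun l => a l i z) = S'.int (fun i z => W fun l => a' l i z)

/-- **I3** (from W3, I0): types and positivity. -/
def PosStmt : Prop :=
  ∀ (d : ℕ) (E Γ : Type) [TopologicalSpace E] [T2Space E] [Group Γ] [Subsingleton Γ]
    [MulAction Γ E] [ContinuousConstSMul Γ E] [Nonempty E] (S : Sheets d E Γ)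
    (w : Fin S.N → Cm d → Matrix (Fin d) (Fin d) ℂ), 2 ≤ d → Kah S w →
    0 < (bW S (kw w) (kw w) (kw w)).re ∧ ∀ s s', Hol2 S s → Hol2 S s' →
      bW S (ts s) (ts s') (kw w) = 0 ∧ bW S (ts s) (kw w) (kw w) = 0 ∧
      ((∃ i, ∃ z ∈ ball (0 : Cm d) 3, s i z ≠ 0) →
        0 < (bW S (ts s) (cjs (ts s)) (kw w)).re)

/-- **HT** (P301, `H862`, `H949`, `H897`): the (2,0)-part of a closed form is, up to the closure in
`L²` of the `∂β`, `β` of type `(1,0)`, a closed holomorphic 2-form. -/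
def HTStmt : Prop :=
  ∀ (d : ℕ) (E Γ : Type) [TopologicalSpace E] [T2Space E] [Group Γ] [Subsingleton Γ]
    [MulAction Γ E] [ContinuousConstSMul Γ E] [PreconnectedSpace E] (S : Sheets d E Γ)
    (w : Fin S.N → Cm d → Matrix (Fin d) (Fin d) ℂ) (α : Fin S.N → Cm d → L2 d), 2 ≤ d →
    Kah S w → Cl2 S α → ∃ h, Hol2 S h ∧ ∀ ε > 0, ∃ β : Fin S.N → Cm d → L1 d, F1On S univ β ∧
      (∀ i, ∀ z ∈ ball (0 : Cm d) 3, ∀ v, β i z (Complex.I • v) = Complex.I * β i z v) ∧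
      ∑ i, ∫ z in S.P i, ∑ j, ∑ k, ‖(c20 (α i z - d1 (β i) z) - h i z) j k‖ ^ 2 < ε

/-- **HI** (from HT, `LapStmt`, `L2ExStmt`, W1, W3, I0, I1): the Hodge index theorem on `H²`. -/
def HIStmt : Prop :=
  ∀ (d : ℕ) (E Γ : Type) [TopologicalSpace E] [T2Space E] [Group Γ] [Subsingleton Γ]
    [MulAction Γ E] [ContinuousConstSMul Γ E] [PreconnectedSpace E] (S : Sheets d E Γ)
    (w : Fin S.N → Cm d → Matrix (Fin d) (Fin d) ℂ) (α : Fin S.N → Cm d → L2 d), 2 ≤ d →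
    Kah S w → Cl2 S α → Real2 S α → bW S α (kw w) (kw w) = 0 →
    (∀ s, Hol2 S s → bW S α (ts s) (kw w) = 0) →
    (bW S α α (kw w)).re ≤ 0 ∧ ((bW S α α (kw w)).re = 0 → Exact S α)

/-- **RA** (from HT, W1, W3, W4, I0, I1, I2): `∫ |det s| = R · B(s, conj s)^(d/2)`, with the same `R`
for `S` and `S'`. (One factor at a time; see #10130, #10353.) -/
def RatioStmt : Prop :=
  ∀ (d : ℕ) (E Γ : Type) [TopologicalSpace E] [T2Space E] [Group Γ] [Subsingleton Γ]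
    [MulAction Γ E] [ContinuousConstSMul Γ E] [PreconnectedSpace E] (S : Sheets d E Γ)
    (E' Γ' : Type) [TopologicalSpace E'] [T2Space E'] [Group Γ'] [Subsingleton Γ']
    [MulAction Γ' E'] [ContinuousConstSMul Γ' E'] [PreconnectedSpace E'] (S' : Sheets d E' Γ')
    (τ : E ≃ₜ E') (w : Fin S.N → Cm d → Matrix (Fin d) (Fin d) ℂ)
    (w' : Fin S'.N → Cm d → Matrix (Fin d) (Fin d) ℂ)
    (s : Fin S.N → Cm d → Matrix (Fin d) (Fin d) ℂ)
    (s' : Fin S'.N → Cm d → Matrix (Fin d) (Fin d) ℂ) (α κ : Fin S.N → Cm d → L2 d), 2 ≤ d →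
    Dif S S' τ → Kah S w → Kah S' w' → Gen2 S s → Gen2 S' s' → Cl2 S α →
    Pull2 S S' τ α (ts s') → Cl2 S κ → Pull2 S S' τ κ (kw w') →
    Exact S (fun i z => κ i z - kw w i z) → bW S α (cjs (ts s)) (kw w) ≠ 0 →
    volS S s ^ 2 * (bW S' (ts s') (cjs (ts s')) (kw w')).re ^ d =
      volS S' s' ^ 2 * (bW S (ts s) (cjs (ts s)) (kw w)).re ^ d

/-- **D3'** (from HI, I0, I1, I3): the period of one manifold. -/
def Per2Stmt : Prop :=
  ∀ (d : ℕ) (E Γ : Type) [TopologicalSpace E] [T2Space E] [PreconnectedSpace E] [Nonempty E]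
    [Group Γ] [Subsingleton Γ] [MulAction Γ E] [ContinuousConstSMul Γ E] (S : Sheets d E Γ)
    (w : Fin S.N → Cm d → Matrix (Fin d) (Fin d) ℂ)
    (s : Fin S.N → Cm d → Matrix (Fin d) (Fin d) ℂ) (n : ℕ) (M : Mark2 S n), 2 ≤ d → Kah S w →
    Gen2 S s → IsK3Period (Bc M (kw w)) (kc M w) (M.cl (ts s)) ∧
    (bil (Bc M (kw w)) (M.cl (ts s)) (star (M.cl (ts s)))).re =
      (bW S (ts s) (cjs (ts s)) (kw w)).re

/-- **D4'** (from `PullStmt`, I1, I2): the pull-back of a marking, with the metrics. -/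
def PullMark2Stmt : Prop :=
  ∀ (d : ℕ) (E Γ : Type) [TopologicalSpace E] [T2Space E] [Group Γ] [Subsingleton Γ]
    [MulAction Γ E] [ContinuousConstSMul Γ E] (S : Sheets d E Γ)
    (E' Γ' : Type) [TopologicalSpace E'] [T2Space E'] [Group Γ'] [Subsingleton Γ']
    [MulAction Γ' E'] [ContinuousConstSMul Γ' E'] (S' : Sheets d E' Γ') (τ : E ≃ₜ E') (n : ℕ)
    (M' : Mark2 S' n) (w : Fin S.N → Cm d → Matrix (Fin d) (Fin d) ℂ)
    (w' : Fin S'.N → Cm d → Matrix (Fin d) (Fin d) ℂ) (κ : Fin S.N → Cm d → L2 d), 2 ≤ d →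
    Dif S S' τ → Kah S w → Kah S' w' → Cl2 S κ → Pull2 S S' τ κ (kw w') →
    Exact S (fun i z => κ i z - kw w i z) →
    ∃ M : Mark2 S n, Bc M (kw w) = Bc M' (kw w') ∧ kc M w = kc M' w' ∧
      ∀ α α', Cl2 S α → Cl2 S' α' → Pull2 S S' τ α α' → M.cl α = M'.cl α'

/-- **D5'** (from I1): two markings of the same manifold. -/
def TwoMark2Stmt : Prop :=
  ∀ (d : ℕ) (E Γ : Type) [TopologicalSpace E] [T2Space E] [Group Γ] [Subsingleton Γ]
    [MulAction Γ E] [ContinuousConstSMul Γ E] (S : Sheets d E Γ) (n : ℕ) (M M' : Mark2 S n)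
    (c : Fin S.N → Cm d → L2 d), 2 ≤ d → Cl2 S c → Real2 S c →
    ∃ A : Matrix (Fin n) (Fin n) ℤ, IsUnit A.det ∧
      (∀ α, Cl2 S α → M'.cl α = (A.map (Int.cast : ℤ → ℂ)).mulVec (M.cl α)) ∧
      (A.map (Int.cast : ℤ → ℝ)).transpose * Bc M' c * A.map (Int.cast : ℤ → ℝ) = Bc M c

/-! ### C. Families -/

/-- **F1** (helper364's proof): the generators are a holomorphic family. -/
def Grau2Stmt : Prop :=
  ∀ (p d : ℕ) (E Γ : Type) [TopologicalSpace E] [T2Space E] [PreconnectedSpace E] [Group Γ]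
    [Subsingleton Γ] [MulAction Γ E] [ContinuousConstSMul Γ E] (𝓕 : Fam p d E Γ), 0 < d →
    (∀ t (ht : t ∈ 𝓕.T), ∃ s, Gen2 (𝓕.at t ht) s) → ∀ t₀ ∈ 𝓕.T,
    ∃ (T' : Set (Cm p)) (s : Fin 𝓕.N → Cm p × Cm d → Matrix (Fin d) (Fin d) ℂ),
      T' ⊆ 𝓕.T ∧ IsOpen T' ∧ t₀ ∈ T' ∧ Fam2 𝓕 T' s

/-- **F2** (from the A's): the periods are holomorphic. -/
def HolP2Stmt : Prop :=
  ∀ (p d : ℕ) (E Γ : Type) [TopologicalSpace E] [T2Space E] [Group Γ]
    [Subsingleton Γ] [MulAction Γ E] [ContinuousConstSMul Γ E] (𝓕 : Fam p d E Γ)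
    (T' : Set (Cm p)) (hT' : T' ⊆ 𝓕.T)
    (s : Fin 𝓕.N → Cm p × Cm d → Matrix (Fin d) (Fin d) ℂ) (t₀ : Cm p)
    (ht₀ : t₀ ∈ T') (n : ℕ) (M : Mark2 (𝓕.at t₀ (hT' ht₀)) n)
    (α : Cm p → Fin (𝓕.at t₀ (hT' ht₀)).N → Cm d → L2 d), 0 < d → IsOpen T' → Fam2 𝓕 T' s →
    (∀ t (ht : t ∈ T'), Cl2 (𝓕.at t₀ (hT' ht₀)) (α t) ∧
      Pull2 (𝓕.at t₀ (hT' ht₀)) (𝓕.at t (hT' ht)) id (α t) (ts fun i z => s i (t, z))) →
    ∀ k, AnalyticAt ℂ (fun t => M.cl (α t) k) t₀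

/-- **F3** (from the A's): the class of the Kähler metric is locally constant (`KConstStmt`, any
`d`). -/
def KConst2Stmt : Prop :=
  ∀ (p d : ℕ) (E Γ : Type) [TopologicalSpace E] [T2Space E] [Group Γ]
    [Subsingleton Γ] [MulAction Γ E] [ContinuousConstSMul Γ E] (𝓕 : Fam p d E Γ)
    (W : Fin 𝓕.N → Cm p × Cm d → Matrix (Fin p ⊕ Fin d) (Fin p ⊕ Fin d) ℂ) (t₀ : Cm p)
    (ht₀ : t₀ ∈ 𝓕.T) (n : ℕ) (M : Mark2 (𝓕.at t₀ ht₀) n)
    (α : Cm p → Fin (𝓕.at t₀ ht₀).N → Cm d → L2 d), 0 < d → KFam 𝓕 W →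
    (∀ t (ht : t ∈ 𝓕.T), Cl2 (𝓕.at t₀ ht₀) (α t) ∧
      Pull2 (𝓕.at t₀ ht₀) (𝓕.at t ht) id (α t) (kw (fibW W t))) →
    ∀ᶠ t in 𝓝 t₀, M.cl (α t) = M.cl (α t₀)

/-- **D1'** (from `MarkStmt`, `PullStmt`, HI, I0-I3, D3', D4', F3; signature): `h^{2,0}` is
constant, if it is one somewhere. -/
def Gen2ConstStmt : Prop :=
  ∀ (p d : ℕ) (E Γ : Type) [TopologicalSpace E] [T2Space E] [PreconnectedSpace E] [Group Γ]
    [Subsingleton Γ] [MulAction Γ E] [ContinuousConstSMul Γ E] (𝓕 : Fam p d E Γ)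
    (W : Fin 𝓕.N → Cm p × Cm d → Matrix (Fin p ⊕ Fin d) (Fin p ⊕ Fin d) ℂ), 2 ≤ d → KFam 𝓕 W →
    ∀ t (ht : t ∈ 𝓕.T) t' (ht' : t' ∈ 𝓕.T), (∃ s, Gen2 (𝓕.at t ht) s) →
      ∃ s, Gen2 (𝓕.at t' ht') s

/-! ### D. Geometry -/

section
variable {p d : ℕ} {Z Y : Type} [TopologicalSpace Z] [ChartedSpace (Cm (p + d)) Z]
  [TopologicalSpace Y] [ChartedSpace (Cm p) Y]

/-- In some model of `f` at `y`, the universal covering `E` of the fibre is compact, with `N` sheets,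
and the closed holomorphic 2-forms on `E` are the multiples of one form `s`, `det s` not zero. -/
def NDeg2 (p d N : ℕ) {Z Y : Type} [TopologicalSpace Z] [ChartedSpace (Cm (p + d)) Z]
    [TopologicalSpace Y] [ChartedSpace (Cm p) Y] (f : Z → Y) (y : Y) : Prop :=
  ∃ (E Γ : Type) (_ : TopologicalSpace E) (_ : T2Space E) (_ : SimplyConnectedSpace E)
    (_ : Group Γ) (_ : MulAction Γ E) (_ : ContinuousConstSMul Γ E)
    (_ : (⊥ : Subgroup Γ).FiniteIndex) (𝓕 : Fam p d E Γ)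
    (q : Cm p → E → Z) (χ : OpenPartialHomeomorph Y (Cm p)) (t : Cm p) (ht : t ∈ 𝓕.T),
    Model (n := p + d) f 𝓕 χ q ∧ χ.symm t = y ∧ Nat.card Γ = N ∧
      ∃ s, Gen2 (sub (𝓕.at t ht) (⊥ : Subgroup Γ)) s ∧
        DetNe (sub (𝓕.at t ht) (⊥ : Subgroup Γ)) s

/-- Local data over an open set of `Y`: a model, with markings of the manifolds
`sub (𝓕.at t ht) ⊥` (all with the same form `B` and Kähler class `v`), the generator `s` with its
period `P`, and the norm of `det s` (with the constant `R`). -/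
structure LocT (f : Z → Y)
    (w : Chart (p + d) Z → Cm (p + d) → Matrix (Fin (p + d)) (Fin (p + d)) ℂ) (N : ℕ) {n : ℕ}
    (B : Matrix (Fin n) (Fin n) ℝ) (v : Fin n → ℝ) (R : ℝ) where
  E : Type
  Γ : Type
  [tE : TopologicalSpace E]
  [t2 : T2Space E]
  [sc : SimplyConnectedSpace E]
  [gr : Group Γ]
  [act : MulAction Γ E]
  [ct : ContinuousConstSMul Γ E]
  [fin : (⊥ : Subgroup Γ).FiniteIndex]
  𝓕 : Fam p d E Γ
  q : Cm p → E → Z
  χ : OpenPartialHomeomorph Y (Cm p)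
  model : Model (n := p + d) f 𝓕 χ q
  W : Fin 𝓕.N → Cm p × Cm d → Matrix (Fin p ⊕ Fin d) (Fin p ⊕ Fin d) ℂ
  pull : IsPull w 𝓕 q W
  kfam : KFam 𝓕 W
  card : Nat.card Γ = N
  T' : Set (Cm p)
  hT' : T' ⊆ 𝓕.T
  isOpen' : IsOpen T'
  s : Fin (fsub 𝓕 (⊥ : Subgroup Γ)).N → Cm p × Cm d → Matrix (Fin d) (Fin d) ℂ
  fam2 : Fam2 (fsub 𝓕 (⊥ : Subgroup Γ)) T' s
  M : ∀ t (ht : t ∈ T'), Mark2 (sub (𝓕.at t (hT' ht)) (⊥ : Subgroup Γ)) n
  form : ∀ t (ht : t ∈ T'), Bc (M t ht) (kw (fW (⊥ : Subgroup Γ) W t)) = B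
  kah : ∀ t (ht : t ∈ T'), kc (M t ht) (fW (⊥ : Subgroup Γ) W t) = v
  P : Cm p → Fin n → ℂ
  per : ∀ t (ht : t ∈ T'), P t = (M t ht).cl (ts fun i z => s i (t, z))
  holP : ∀ k, ∀ t ∈ T', AnalyticAt ℂ (fun t => P t k) t
  nrm : ∀ t (ht : t ∈ T'),
    volS (sub (𝓕.at t (hT' ht)) (⊥ : Subgroup Γ)) (fun i z => s i (t, z)) ^ 2 =
      R * (bil B (P t) (star (P t))).re ^ d

attribute [instance] LocT.tE LocT.t2 LocT.sc LocT.gr LocT.act LocT.ct LocT.fin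

end

/-- **G1'** (port of `GlobKStmt`; from `MarkStmt`, D1', D3', D4', F1, F2, F3, RA, `ABStmt`, ...): if
one fibre over `Y ∖ S` is as in `NDeg2`, there are local data at all the points of `Y ∖ S`, with the
same `n`, `B`, `v`, `R`. -/
def Glob2Stmt : Prop :=
  ∀ (p d N : ℕ) (Z Y : Type) [TopologicalSpace Z] [T2Space Z] [ChartedSpace (Cm (p + d)) Z]
    [IsManifold 𝓘(ℂ, Cm (p + d)) ω Z] [TopologicalSpace Y] [T2Space Y] [ChartedSpace (Cm p) Y]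
    [IsManifold 𝓘(ℂ, Cm p) ω Y] (f : Z → Y) (S : Set Y)
    (w : Chart (p + d) Z → Cm (p + d) → Matrix (Fin (p + d)) (Fin (p + d)) ℂ) (y₁ : Y), 2 ≤ d →
    ContMDiff 𝓘(ℂ, Cm (p + d)) 𝓘(ℂ, Cm p) ω f →
    IsProperFibration (n := p + d) (p := p) f S → IsPreconnected Sᶜ → IsKahler w →
    y₁ ∉ S → NDeg2 p d N f y₁ →
    ∃ (n : ℕ) (B : Matrix (Fin n) (Fin n) ℝ) (v : Fin n → ℝ) (R : ℝ), 0 < R ∧ ∀ y₀ ∉ S,
      ∃ L : LocT (p := p) (d := d) f w N B v R, y₀ ∈ L.χ.source ∧ L.χ y₀ ∈ L.T' ∧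
        ∀ t ∈ L.T', L.χ.symm t ∉ S

/-- **G2'** (port of `FormKStmt`; from D3', D4', D5'): the `2 N`-canonical forms `(det s) ^ N` on the
fibres, of weight `d N`. -/
def Form2Stmt : Prop :=
  ∀ (p d N : ℕ) (Z Y : Type) [TopologicalSpace Z] [T2Space Z] [ChartedSpace (Cm (p + d)) Z]
    [IsManifold 𝓘(ℂ, Cm (p + d)) ω Z] [TopologicalSpace Y] [T2Space Y] [ChartedSpace (Cm p) Y]
    [IsManifold 𝓘(ℂ, Cm p) ω Y] (f : Z → Y) (S : Set Y)
    (w : Chart (p + d) Z → Cm (p + d) → Matrix (Fin (p + d)) (Fin (p + d)) ℂ) (n : ℕ)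
    (B : Matrix (Fin n) (Fin n) ℝ) (v : Fin n → ℝ) (R : ℝ), 0 < N → 2 ≤ d → 0 < R →
    ContMDiff 𝓘(ℂ, Cm (p + d)) 𝓘(ℂ, Cm p) ω f →
    IsProperFibration (n := p + d) (p := p) f S → IsKahler w →
    (∀ y₀ ∉ S, ∃ L : LocT (p := p) (d := d) f w N B v R, y₀ ∈ L.χ.source ∧ L.χ y₀ ∈ L.T' ∧
      ∀ t ∈ L.T', L.χ.symm t ∉ S) →
    ∃ (ι : Type) (U : ι → Set Y) (π : ι → Y → ((Fin 0 → ℝ) ≃L[ℝ] EuclideanSpace ℂ (Fin 0)))
      (P : ι → Y → Fin 1 → Fin n → ℂ) (η : ι → Fin 1 → Z → (Fin d → Cm (p + d)) → ℂ),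
      IsPeriodForms (Cm (p + d)) (Cm p) f S 0 (2 * N) (fun _ => 0) (fun _ _ => 0) 0 (fun _ => B)
        (fun _ => v) (fun _ => d * N) U π P η

/-- **G3'** (port of `FibKStmt`): `F → f⁻¹(y)` is the universal covering. -/
def Fib2Stmt : Prop :=
  ∀ (p d : ℕ) (Z Y : Type) [TopologicalSpace Z] [T2Space Z] [ChartedSpace (Cm (p + d)) Z]
    [IsManifold 𝓘(ℂ, Cm (p + d)) ω Z] [TopologicalSpace Y] [T2Space Y] [ChartedSpace (Cm p) Y]
    [IsManifold 𝓘(ℂ, Cm p) ω Y] (f : Z → Y) (S : Set Y), 0 < d →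
    ContMDiff 𝓘(ℂ, Cm (p + d)) 𝓘(ℂ, Cm p) ω f →
    IsProperFibration (n := p + d) (p := p) f S → ABStmt →
    ∀ y ∉ S, ∀ (F : Type) [TopologicalSpace F] [T2Space F] [SimplyConnectedSpace F]
      [ChartedSpace (Cm d) F] (i : F → Z), H511.Surf.IsFibre (Cm (p + d)) (Cm d) f y i →
      Sympl d F → ∃ N, 0 < N ∧ NDeg2 p d N f y

/-- **T-HK**, the goal: if the general fibre has a finite étale covering `F` which is simply connected
with `h⁰(F, Ω²) = 1` and a generically nondegenerate 2-form (for instance an irreducible holomorphic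
symplectic manifold; K3 surfaces if `d = 2`), then `κ(X, K_X + Δ) ≥ kodF f Δ`. -/
def THKStmt : Prop :=
  ∀ (p d : ℕ) (X Y : Type) [TopologicalSpace X] [ChartedSpace (Cm (p + d)) X]
    [TopologicalSpace Y] [ChartedSpace (Cm p) Y] (f : X → Y) (Δ : Set X → ℝ), 2 ≤ d →
    H511.Surf.IsFibration (Cm (p + d)) (Cm p) f Δ →
    (∃ w : Chart (p + d) X → Cm (p + d) → Matrix (Fin (p + d)) (Fin (p + d)) ℂ, IsKahler w) →
    ∃ H : ℕ → Set Y, (∀ k, IsThinSet (Cm p) (H k)) ∧ ∀ y, (∀ k, y ∉ H k) →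
      ∀ (F : Type) [TopologicalSpace F] [T2Space F] [SimplyConnectedSpace F]
        [ChartedSpace (Cm d) F] (i : F → X), H511.Surf.IsFibre (Cm (p + d)) (Cm d) f y i →
        Sympl d F →
        TZ.S.kodF (p + d) p Δ (id : X → X) f ≤ TZ.S.kodX (Cm (p + d)) Δ

end Vale.Agent.P281.H83.HK
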