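import Vale.Agent.P281.H64.TS.Defs

/-!
# P281, project T-HK (helper83): irreducible holomorphic symplectic fibres, definitions (FROZEN)

`S : Sheets d E Γ` with `[Subsingleton Γ]`: a compact complex manifold `E` of dimension `d`. A
holomorphic 2-form is given by its matrices `s i z` (skew): `(u, v) ↦ ∑ s_{jk} u_j v_k`, i.e.
`(1/2) ∑ s_{jk} dz_j ∧ dz_k`. `W a_1 ... a_d` is the density of `a_1 ∧ ⋯ ∧ a_d`.
-/

open Set Filter Metric MeasureTheory Vale.Agent.P272.K
open scoped Topology ContDiff ComplexConjugate ComplexOrder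

noncomputable section

namespace Vale.Agent.P281.H83.HK

open Vale.Agent.P281.H64.TK Vale.Agent.P281.H64.TK.TS

/-! ### Pointwise algebra -/

section alg

variable {d : ℕ}

/-- The 2-form with values `f u v` (`f` real bilinear). -/
def mkL (f : Cm d →ₗ[ℝ] Cm d →ₗ[ℝ] ℂ) : L2 d :=
  LinearMap.toContinuousLinearMap
    ((LinearMap.toContinuousLinearMap (𝕜 := ℝ) (E := Cm d) (F' := ℂ)).toLinearMap ∘ₗ f)

/-- The 2-form `(u, v) ↦ ∑ m_{jk} u_j v_k` of type `(2,0)` (`m` skew). -/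
def tf (m : Matrix (Fin d) (Fin d) ℂ) : L2 d :=
  mkL (LinearMap.mk₂ ℝ (fun u v : Cm d => ∑ j, ∑ k, m j k * (u j * v k))
    (by
      intro u u' v
      simp only [Pi.add_apply, add_mul, mul_add, Finset.sum_add_distrib])
    (by
      intro c u v
      simp only [Pi.smul_apply, Complex.real_smul, Finset.mul_sum]
      exact Finset.sum_congr rfl fun j _ => Finset.sum_congr rfl fun k _ => by ring)
    (by
      intro u v v'
      simp only [Pi.add_apply, mul_add, Finset.sum_add_distrib])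
    (by
      intro c u v
      simp only [Pi.smul_apply, Complex.real_smul, Finset.mul_sum]
      exact Finset.sum_congr rfl fun j _ => Finset.sum_congr rfl fun k _ => by ring))

/-- The conjugate 2-form `(u, v) ↦ conj (a u v)`. -/
def cj (a : L2 d) : L2 d :=
  mkL (LinearMap.mk₂ ℝ (fun u v : Cm d => conj (a u v))
    (by intro u u' v; simp)
    (by intro c u v; simp)
    (by intro u v v'; simp)
    (by intro c u v; simp))

/-- The 2-form `(i/2) ∑ w_{jk} dz_j ∧ conj dz_k` (real if `w` is Hermitian). -/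
def kf (w : Matrix (Fin d) (Fin d) ℂ) : L2 d :=
  mkL (LinearMap.mk₂ ℝ
    (fun u v : Cm d => Complex.I / 2 * ∑ j, ∑ k, w j k * (u j * conj (v k) - v j * conj (u k)))
    (by
      intro u u' v
      simp only [Pi.add_apply, map_add, add_mul, mul_add, sub_eq_add_neg, neg_add,
        Finset.sum_add_distrib]
      ring)
    (by
      intro c u v
      simp only [Pi.smul_apply, Complex.real_smul, map_mul, Complex.conj_ofReal, Finset.mul_sum]
      exact Finset.sum_congr rfl fun j _ => Finset.sum_congr rfl fun k _ => by ring)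
    (by
      intro u v v'
      simp only [Pi.add_apply, map_add, add_mul, mul_add, sub_eq_add_neg, neg_add,
        Finset.sum_add_distrib]
      ring)
    (by
      intro c u v
      simp only [Pi.smul_apply, Complex.real_smul, map_mul, Complex.conj_ofReal, Finset.mul_sum]
      exact Finset.sum_congr rfl fun j _ => Finset.sum_congr rfl fun k _ => by ring))

/-- The real basis of `ℂ^d`: `rb (k, 0) = e_k`, `rb (k, 1) = i e_k`. -/
def rb (q : Fin d × Fin 2) : Cm d := Pi.single q.1 (if q.2 = 0 then 1 else Complex.I)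

/-- The density of `a_1 ∧ ⋯ ∧ a_d`, with respect to the Lebesgue measure of `ℂ^d`. -/
def W (a : Fin d → L2 d) : ℂ :=
  ((2 : ℂ) ^ d)⁻¹ * ∑ π : Equiv.Perm (Fin d × Fin 2),
    ((Equiv.Perm.sign π : ℤ) : ℂ) * ∏ i, a i (rb (π (i, 0))) (rb (π (i, 1)))

/-- `(a, b, c, c, ..., c)`. -/
def abc (a b c : L2 d) (i : Fin d) : L2 d := if i.val = 0 then a else if i.val = 1 then b else c

/-- The density of `a ∧ b ∧ c^(d-2)`. -/
def W3 (a b c : L2 d) : ℂ := W (abc a b c)

/-- The coefficients `a(∂/∂z_j, ∂/∂z_k)`. -/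
def c20 (a : L2 d) : Matrix (Fin d) (Fin d) ℂ := Matrix.of fun j k =>
  (a (rb (j, 0)) (rb (k, 0)) - Complex.I * a (rb (j, 1)) (rb (k, 0)) -
    Complex.I * a (rb (j, 0)) (rb (k, 1)) - a (rb (j, 1)) (rb (k, 1))) / 4

/-- The coefficients `a(∂/∂z_j, conj ∂/∂z_k)`. -/
def c11 (a : L2 d) : Matrix (Fin d) (Fin d) ℂ := Matrix.of fun j k =>
  (a (rb (j, 0)) (rb (k, 0)) - Complex.I * a (rb (j, 1)) (rb (k, 0)) +
    Complex.I * a (rb (j, 0)) (rb (k, 1)) + a (rb (j, 1)) (rb (k, 1))) / 4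

/-- The coefficients `a(conj ∂/∂z_j, conj ∂/∂z_k)`. -/
def c02 (a : L2 d) : Matrix (Fin d) (Fin d) ℂ := Matrix.of fun j k =>
  (a (rb (j, 0)) (rb (k, 0)) + Complex.I * a (rb (j, 1)) (rb (k, 0)) +
    Complex.I * a (rb (j, 0)) (rb (k, 1)) - a (rb (j, 1)) (rb (k, 1))) / 4

end alg

/-! ### Holomorphic 2-forms, the form `B` -/

section

variable {d : ℕ} {E Γ : Type} [TopologicalSpace E] [Group Γ] [MulAction Γ E]

/-- `s` is a closed holomorphic 2-form. -/
structure Hol2 (S : Sheets d E Γ) (s : Fin S.N → Cm d → Matrix (Fin d) (Fin d) ℂ) : Prop where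
  hol : ∀ i j k, DifferentiableOn ℂ (fun z => s i z j k) (ball 0 3)
  alt : ∀ i, ∀ z ∈ ball (0 : Cm d) 3, (s i z).transpose = -s i z
  closed : ∀ i, ∀ z ∈ ball (0 : Cm d) 3, ∀ j k l,
    dd l (fun z => s i z j k) z + dd j (fun z => s i z k l) z + dd k (fun z => s i z l j) z = 0
  change : ∀ i j, ∀ z ∈ ball (0 : Cm d) 3, ∀ z' ∈ ball (0 : Cm d) 3, ∀ θ : Cm d → Cm d,
    AnalyticAt ℂ θ z → θ z = z' → (∀ᶠ u in 𝓝 z, S.σ i u = S.σ j (θ u)) →
      s i z = (jac θ z).transpose * s j z' * jac θ z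

/-- `s` is a generator, not zero, of the space of the closed holomorphic 2-forms of `E`. -/
structure Gen2 (S : Sheets d E Γ) (s : Fin S.N → Cm d → Matrix (Fin d) (Fin d) ℂ) : Prop where
  form : Hol2 S s
  ne : ∃ i, ∃ z ∈ ball (0 : Cm d) 3, s i z ≠ 0
  unique : ∀ s', Hol2 S s' → ∃ c : ℂ, ∀ i, ∀ z ∈ ball (0 : Cm d) 3, s' i z = c • s i z

/-- `det s` does not vanish identically. -/
def DetNe (S : Sheets d E Γ) (s : Fin S.N → Cm d → Matrix (Fin d) (Fin d) ℂ) : Prop :=
  ∃ i, ∃ z ∈ ball (0 : Cm d) 3, (s i z).det ≠ 0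

/-- `∫ a ∧ b ∧ c^(d-2)` over `E`. -/
def bW (S : Sheets d E Γ) (a b c : Fin S.N → Cm d → L2 d) : ℂ :=
  S.int fun i z => W3 (a i z) (b i z) (c i z)

/-- The Kähler form of the metric `w`. -/
def kw {N : ℕ} (w : Fin N → Cm d → Matrix (Fin d) (Fin d) ℂ) : Fin N → Cm d → L2 d :=
  fun i z => kf (w i z)

/-- The 2-form of the matrices `s`. -/
def ts {N : ℕ} (s : Fin N → Cm d → Matrix (Fin d) (Fin d) ℂ) : Fin N → Cm d → L2 d :=
  fun i z => tf (s i z)

/-- The conjugate form. -/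
def cjs {N : ℕ} (a : Fin N → Cm d → L2 d) : Fin N → Cm d → L2 d := fun i z => cj (a i z)

/-- The form `B(x, y) = ∫ x ∧ y ∧ c^(d-2)` on the basis of a marking. -/
def Bc {S : Sheets d E Γ} {n : ℕ} (M : Mark2 S n) (c : Fin S.N → Cm d → L2 d) :
    Matrix (Fin n) (Fin n) ℝ :=
  Matrix.of fun k l => (bW S (M.b k) (M.b l) c).re

/-- The class of the Kähler metric `w`. -/
def kc {S : Sheets d E Γ} {n : ℕ} (M : Mark2 S n)
    (w : Fin S.N → Cm d → Matrix (Fin d) (Fin d) ℂ) (k : Fin n) : ℝ := (M.cl (kw w) k).re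

/-- The integral `∫ |det s|` of a 2-form. -/
def volS (S : Sheets d E Γ) (s : Fin S.N → Cm d → Matrix (Fin d) (Fin d) ℂ) : ℝ :=
  (S.int fun i z => ((‖(s i z).det‖ : ℝ) : ℂ)).re

end

/-- `s` is a holomorphic family over `T'` of generators of the spaces of closed holomorphic
2-forms. -/
structure Fam2 {p d : ℕ} {E Γ : Type} [TopologicalSpace E] [Group Γ] [MulAction Γ E]
    (𝓕 : Fam p d E Γ) (T' : Set (Cm p))
    (s : Fin 𝓕.N → Cm p × Cm d → Matrix (Fin d) (Fin d) ℂ) : Prop where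
  hol : ∀ i, ∀ t ∈ T', ∀ z ∈ ball (0 : Cm d) 3, ∀ j k, AnalyticAt ℂ (fun q => s i q j k) (t, z)
  gen : ∀ t (ht : t ∈ 𝓕.T), t ∈ T' → Gen2 (𝓕.at t ht) (fun i z => s i (t, z))

/-! ### 2-forms on the fibre -/

section

variable {d : ℕ} {F : Type} [TopologicalSpace F] [ChartedSpace (Cm d) F]

/-- `s` is a closed holomorphic 2-form on `F`: `(1/2) ∑ s_{jk} dz_j ∧ dz_k` in the chart `e`. -/
structure IsHol2 (s : Chart d F → Cm d → Matrix (Fin d) (Fin d) ℂ) : Prop where
  hol : ∀ e ∈ atlas (Cm d) F, ∀ j k, DifferentiableOn ℂ (fun z => s e z j k) e.target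
  alt : ∀ e ∈ atlas (Cm d) F, ∀ z ∈ e.target, (s e z).transpose = -s e z
  closed : ∀ e ∈ atlas (Cm d) F, ∀ z ∈ e.target, ∀ j k l,
    dd l (fun z => s e z j k) z + dd j (fun z => s e z k l) z + dd k (fun z => s e z l j) z = 0
  change : ∀ e ∈ atlas (Cm d) F, ∀ e' ∈ atlas (Cm d) F, ∀ x ∈ e.source ∩ e'.source,
    s e (e x) = (jac (fun u => e' (e.symm u)) (e x)).transpose * s e' (e' x) *
      jac (fun u => e' (e.symm u)) (e x)

variable (d F) in
/-- The closed holomorphic 2-forms on `F` are the multiples of one form `s`, and `det s` is not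
identically zero. (`F` compact Kähler: `h⁰(F, Ω²) = 1`, and the form is nondegenerate at the general
point. Irreducible holomorphic symplectic manifolds have this property.) -/
def Sympl : Prop :=
  ∃ s : Chart d F → Cm d → Matrix (Fin d) (Fin d) ℂ, IsHol2 s ∧
    (∃ e ∈ atlas (Cm d) F, ∃ u ∈ e.target, (s e u).det ≠ 0) ∧
    ∀ s' : Chart d F → Cm d → Matrix (Fin d) (Fin d) ℂ, IsHol2 s' → ∃ c : ℂ,
      ∀ e ∈ atlas (Cm d) F, ∀ u ∈ e.target, s' e u = c • s e u

end

end Vale.Agent.P281.H83.HK
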