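import Vale.Agent.P281.H83.HK.Plug
import Vale.Agent.P281.H864.HK.Ratio
import Vale.Agent.P281.H864.HK.Plug
import Vale.Agent.P281.H624.HK.HI
import Vale.Agent.P281.H89.HK.HTFin
import Vale.Agent.P281.H638.HK.W4
import Vale.Agent.P281.H747.HK.WVal

/-!
# P281, project T-HK: irreducible holomorphic symplectic fibres, the theorem
-/

open Vale.Agent.P281 Vale.Agent.P281.H64 Vale.Agent.P281.H64.TK.TS

noncomputable section

namespace Vale.Agent.P281.H83.HK

theorem aHI : HIStmt :=
  H624.HK.hodgeIndex H864.HK.wLin H747.HK.wVal aForms H864.HK.wStokes H89.HK.ht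
    H399.TS.lapStmt (H295.TS.l2Ex H559.TS.good_stmt aCoEx aCoCob)

theorem aRA : RatioStmt :=
  H864.HK.ratio H89.HK.ht H747.HK.wVal H638.HK.wDet aForms H864.TS.pull

/-- **T-HK.** -/
theorem thk : THKStmt := thk_plug aHI aRA

end Vale.Agent.P281.H83.HK
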