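import Vale.Agent.P281.H83.HK.Core
import Vale.Agent.P281.H64.TS.Fin
import Vale.Agent.P281.H399.HK.Glob3
import Vale.Agent.P281.H511.HK.Fin
import Vale.Agent.P281.H22.HK.Fib2
import Vale.Agent.P281.H834.HK.GenC
import Vale.Agent.P281.H834.HK.Fin
import Vale.Agent.P281.H594.HK.Per
import Vale.Agent.P281.H594.HK.Grauert2
import Vale.Agent.P281.H702.HK.F2
import Vale.Agent.P281.H191.HK.Pull2
import Vale.Agent.P281.H191.HK.Two2
import Vale.Agent.P281.H406.HK.Forms
import Vale.Agent.P281.H747.HK.Pos

/-!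
# P281, project T-HK (helper83): the plug, from the Hodge index theorem and the norm
-/

open Vale.Agent.P281 Vale.Agent.P281.H64 Vale.Agent.P281.H64.TK.TS

noncomputable section

namespace Vale.Agent.P281.H83.HK

theorem aForms : FormsStmt := H406.HK.forms

theorem aPos : PosStmt := H747.HK.pos aForms

theorem aPM : PullMark2Stmt := H191.HK.pullMark2 aForms

theorem aKC : KConst2Stmt := H834.HK.kConst2 H559.TS.good_stmt aCoCob

theorem thk_plug (hHI : HIStmt) (hRA : RatioStmt) : THKStmt :=
  thk_of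
    (H399.HK.glob TK.inputs aMark
      (H834.HK.gen2Const aMark H864.TS.pull aForms aPos hHI aPM aKC H191.TS.sig)
      (H594.HK.per2 hHI aForms aPos) aPM H594.HK.grauert2 H702.HK.holP2 aKC hRA aForms)
    (H511.HK.form2 TK.inputs.k aForms (H594.HK.per2 hHI aForms aPos) aPM H191.HK.twoMark2)
    H22.HK.fib2 TK.inputs.ab H303.UF.crit H383.Gen.compl H383.U.liftT H383.U.tameOK

end Vale.Agent.P281.H83.HK
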