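import Vale.Agent.P281.H83.HK.Spec
import Vale.Agent.P281.H64.TS.Core

/-!
# P281, project T-HK (helper83), block G4': the assembly
-/

open Set Filter Metric MeasureTheory Vale.Agent.P281 Vale.Agent.P281.H713
open Vale.Agent.P272.K (Chart IsKahler IsHermitian)
open Vale.Agent.P281.MF Vale.Agent.P281.ISO
open Vale.Agent.P281.H713.TZ Vale.Agent.P281.H64
open Vale.Agent.P281.H64.Gen
open Vale.Agent.P281.H64.Thin (IsThinSet)
open Vale.Agent.P281.H64.TU (Tame KTame RelFormT HasFormsT)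
open scoped Topology ContDiff Manifold

set_option linter.all false

noncomputable section

namespace Vale.Agent.P281.H83.HK

open Vale.Agent.P281.H64.TK Vale.Agent.P281.H64.TK.TS

/-- **G4'**: the assembly -/
theorem thk_of (glob : Glob2Stmt) (form : Form2Stmt) (fib : Fib2Stmt) (ab : TK.ABStmt)
    (crit : CritStmt) (compl : ComplStmt) (lift : TU.LiftTStmt) (tame : TU.TameOKStmt) :
    THKStmt := by
  classical
  intro p d X Y _ _ _ _ f Δ hd h hw
  obtain ⟨w, hw⟩ := hw
  have : T2Space X := h.hausdorff.1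
  have : T2Space Y := h.hausdorff.2
  have : CompactSpace X := h.compact
  have : ConnectedSpace X := h.connected
  have : IsManifold 𝓘(ℂ, H64.Cm (p + d)) ω X := h.manifold.1
  have : IsManifold 𝓘(ℂ, H64.Cm p) ω Y := h.manifold.2
  have hΔ0 : ∀ D, 0 ≤ Δ D := fun D => (snc01 (JB.snc h.snc) D).1
  have hsurj : Function.Surjective f := fun y => (h.fibres y).nonempty
  have : PreconnectedSpace Y := by
    rw [preconnectedSpace_iff_univ, ← hsurj.range_eq]
    exact isPreconnected_range h.hol.continuous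
  obtain ⟨S, hS, hP⟩ := crit (p + d) p X Y f h.hol h.fibres
  have hP₁ := hP S subset_rfl hS.1
  have hpre := (compl p Y S hS).2
  obtain ⟨H, hH, hsub⟩ := hS.2
  refine ⟨H, hH, fun y hy F _ _ _ _ i hi hpg => ?_⟩
  have hyS : y ∉ S := by
    intro h2
    obtain ⟨k, hk⟩ := mem_iUnion.1 (hsub h2)
    exact hy k hk
  obtain ⟨N, hN, hND⟩ := fib p d X Y f S (by omega) h.hol hP₁ ab y hyS F i hi hpg
  obtain ⟨n, B, v, R, hR, hL⟩ := glob p d N X Y f S w y hd h.hol hP₁ hpre hw hyS hND
  obtain ⟨ι, U, π, P, η, hC⟩ := form p d N X Y f S w n B v R hN hd hR h.hol hP₁ hw hL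
  let e₀ : H64.Cm (p + d) ≃L[ℂ] (H64.Cm p × H64.Cm d) :=
    ContinuousLinearEquiv.ofFinrankEq (by simp)
  have h1 : (((0 : ℕ) : ℕ∞) : WithBot ℕ∞) + TZ.S.kodF (p + d) p Δ (id : X → X) f ≤
      TZ.S.kodX (H64.Cm (p + d)) Δ := by
    refine H303.UF.first_of fun j₂ h₂ => ?_
    refine lift (p + d) p X Y (H64.Cm d) (KTame w) f S e₀ Δ 0 j₂
      (tame (p + d) d X w hw.toIsHermitian) h.hol hS hP₁.submersive h.snc
      (fun y hy => hasFormsT_of ?_) h₂
    refine hasForms_periods hC (fun x => h.hol x) e₀ (Nat.mul_pos two_pos hN) ?_ ?_ ?_ hy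
    · simp
    · intro D hD
      exact absurd rfl hD
    · intro D
      simpa using mul_nonneg (Nat.cast_nonneg (2 * N)) (hΔ0 D)
  simpa using h1

end Vale.Agent.P281.H83.HK
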